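import Mathlib

/-!
A double cover seen through two charts: a loop along which a square root changes sign is not null
homotopic.
-/

open Set Topology

namespace Vale.Agent.P255.Cover

noncomputable section

/-- The symmetric square of a vector of `ℂ²`. -/
def sqMap (v : ℂ × ℂ) : ℂ × ℂ × ℂ := (v.1 ^ 2, v.2 ^ 2, v.1 * v.2)

theorem continuous_sqMap : Continuous sqMap := by unfold sqMap; fun_prop

theorem sqMap_eq_zero {v : ℂ × ℂ} : sqMap v = 0 ↔ v = 0 := by
  constructor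
  · intro h
    simp [sqMap, Prod.ext_iff] at h
    exact Prod.ext h.1 h.2.1
  · rintro rfl
    simp [sqMap]

theorem sqMap_eq_iff {v w : ℂ × ℂ} : sqMap v = sqMap w ↔ v = w ∨ v = -w := by
  constructor
  · intro h
    simp only [sqMap, Prod.mk.injEq] at h
    obtain ⟨h1, h2, h3⟩ := h
    rcases sq_eq_sq_iff_eq_or_eq_neg.1 h1 with e1 | e1 <;>
      rcases sq_eq_sq_iff_eq_or_eq_neg.1 h2 with e2 | e2
    · exact .inl (Prod.ext e1 e2)
    · rcases eq_or_ne w.1 0 with z | z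
      · exact .inr (Prod.ext (by rw [e1, Prod.fst_neg, z, neg_zero]) e2)
      · rw [e1] at h3
        exact .inl (Prod.ext e1 (mul_left_cancel₀ z h3))
    · rcases eq_or_ne w.1 0 with z | z
      · exact .inl (Prod.ext (by rw [e1, z, neg_zero]) e2)
      · rw [e1, neg_mul, ← mul_neg] at h3
        have : -v.2 = w.2 := mul_left_cancel₀ z h3
        exact .inr (Prod.ext e1 (by rw [Prod.snd_neg, ← this, neg_neg]))
    · exact .inr (Prod.ext e1 e2)
  · rintro (rfl | rfl)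
    · rfl
    · simp [sqMap]

theorem norm_sq_le_sqMap (v : ℂ × ℂ) : ‖v‖ ^ 2 ≤ ‖sqMap v‖ := by
  rcases le_total ‖v.1‖ ‖v.2‖ with h | h
  · rw [Prod.norm_def, max_eq_right h, ← norm_pow]
    exact le_trans (norm_fst_le (sqMap v).2) (norm_snd_le (sqMap v))
  · rw [Prod.norm_def, max_eq_left h, ← norm_pow]
    exact norm_fst_le (sqMap v)

theorem isProperMap_sqMap : IsProperMap sqMap := by
  refine isProperMap_iff_isCompact_preimage.2 ⟨continuous_sqMap, fun K hK => ?_⟩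
  obtain ⟨R, hR⟩ := hK.isBounded.subset_closedBall 0
  refine Metric.isCompact_of_isClosed_isBounded (hK.isClosed.preimage continuous_sqMap)
    ((Metric.isBounded_closedBall (x := (0 : ℂ × ℂ)) (r := Real.sqrt R)).subset fun v hv => ?_)
  rw [mem_closedBall_zero_iff]
  refine Real.le_sqrt_of_sq_le ((norm_sq_le_sqMap v).trans ?_)
  exact mem_closedBall_zero_iff.1 (hR hv)

/-- The nonzero symmetric squares. -/
def base : Set (ℂ × ℂ × ℂ) := range sqMap \ {0}

/-- The nonzero vectors. -/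
def total : Type := ↥(sqMap ⁻¹' base)

instance : TopologicalSpace total := inferInstanceAs (TopologicalSpace ↥(sqMap ⁻¹' base))

instance : T2Space total := inferInstanceAs (T2Space ↥(sqMap ⁻¹' base))

theorem preimage_base : sqMap ⁻¹' base = {v | v ≠ 0} := by
  ext v
  simp [base, sqMap_eq_zero]

instance : LocallyCompactSpace total :=
  (IsOpen.locallyCompactSpace (by rw [preimage_base]; exact isOpen_ne) :
    LocallyCompactSpace ↥(sqMap ⁻¹' base))

instance : SMul ℤˣ total :=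
  ⟨fun u v => ⟨((u : ℤ) : ℂ) • (v.1 : ℂ × ℂ), by
    rcases Int.units_eq_one_or u with rfl | rfl
    · simpa using v.2
    · rw [mem_preimage]
      convert v.2 using 1
      simp [sqMap]⟩⟩

theorem coe_smul (u : ℤˣ) (v : total) :
    ((u • v : total).1 : ℂ × ℂ) = ((u : ℤ) : ℂ) • (v.1 : ℂ × ℂ) := rfl

instance : MulAction ℤˣ total where
  one_smul v := Subtype.ext (by rw [coe_smul]; simp)
  mul_smul a b v := Subtype.ext (by rw [coe_smul, coe_smul, coe_smul, smul_smul]; push_cast; rfl)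

instance : ContinuousConstSMul ℤˣ total :=
  ⟨fun u => ((continuous_const_smul (((u : ℤ) : ℂ))).comp continuous_subtype_val).subtype_mk _⟩

instance : IsCancelSMul ℤˣ total where
  left_cancel' a b c h := by simpa using congrArg (a⁻¹ • ·) h
  right_cancel' a b c h := by
    have hc : (c.1 : ℂ × ℂ) ≠ 0 := (preimage_base ▸ c.2 : c.1 ∈ {v : ℂ × ℂ | v ≠ 0})
    have h' := congrArg Subtype.val h
    rw [coe_smul, coe_smul] at h'
    exact Units.ext (Int.cast_injective (smul_left_injective ℂ hc h'))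

/-- The covering of the nonzero symmetric squares by the nonzero vectors. -/
def proj : total → base := base.restrictPreimage sqMap

theorem isCoveringMap_proj : IsCoveringMap proj := by
  have hc : Continuous proj := continuous_sqMap.restrictPreimage
  have hs : Function.Surjective proj := by
    rintro ⟨y, ⟨v, rfl⟩, hy⟩
    exact ⟨⟨v, ⟨v, rfl⟩, hy⟩, rfl⟩
  have hq : IsQuotientMap proj :=
    IsClosedMap.isQuotientMap (isProperMap_sqMap.restrictPreimage base).isClosedMap hc hs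
  refine (hq.isQuotientCoveringMap_of_properlyDiscontinuousSMul (G := ℤˣ) fun {v w} => ?_
    ).isCoveringMap
  constructor
  · intro h
    rcases sqMap_eq_iff.1 (congrArg Subtype.val h) with e | e
    · exact ⟨1, Subtype.ext (by change ((1 • w : total).1 : ℂ × ℂ) = v.1; rw [one_smul]; exact e.symm)⟩
    · exact ⟨-1, Subtype.ext (by
        change (((-1 : ℤˣ) • w : total).1 : ℂ × ℂ) = v.1
        rw [coe_smul, e]; simp)⟩
  · rintro ⟨u, rfl⟩
    refine Subtype.ext (sqMap_eq_iff.2 ?_)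
    rcases Int.units_eq_one_or u with rfl | rfl
    · exact .inl (by change ((1 • w : total).1 : ℂ × ℂ) = w.1; rw [one_smul])
    · exact .inr (by change (((-1 : ℤˣ) • w : total).1 : ℂ × ℂ) = -w.1; rw [coe_smul]; simp)

variable {M : Type*} [TopologicalSpace M]

/-- A function continuous where a factor lives gives a continuous product. -/
theorem continuous_mul_of_tsupport {U : Set M} (hU : IsOpen U) {F : M → ℂ} {a : M → ℝ}
    (hF : ContinuousOn F U) (ha : Continuous a) (hsup : tsupport a ⊆ U) :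
    Continuous fun x => F x * (a x : ℂ) := by
  refine continuous_iff_continuousAt.2 fun x => ?_
  by_cases hx : x ∈ U
  · exact (hF.continuousAt (hU.mem_nhds hx)).mul (Complex.continuous_ofReal.comp ha).continuousAt
  · have h0 : a =ᶠ[𝓝 x] 0 := notMem_tsupport_iff_eventuallyEq.1 fun h => hx (hsup h)
    refine (continuousAt_const (y := (0 : ℂ))).congr ?_
    filter_upwards [h0] with y hy
    simp [hy]

/-- A loop in the first chart, off the second, along which `Φ₀` winds once is not null homotopic,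
provided the square classes of `Φ₀` and `Φ₁` agree on the overlap. -/
theorem loop_not_nullhomotopic {U₀ U₁ : Set M} (hU₀ : IsOpen U₀) (hU₁ : IsOpen U₁)
    {Φ₀ Φ₁ s : M → ℂ} (h₀ : ContinuousOn Φ₀ U₀) (h₁ : ContinuousOn Φ₁ U₁)
    (hs : ContinuousOn s (U₀ ∩ U₁)) (n₀ : ∀ x ∈ U₀, Φ₀ x ≠ 0) (n₁ : ∀ x ∈ U₁, Φ₁ x ≠ 0)
    (hsq : ∀ x ∈ U₀ ∩ U₁, Φ₁ x = s x ^ 2 * Φ₀ x)
    {a₀ a₁ : M → ℝ} (ha₀ : Continuous a₀) (ha₁ : Continuous a₁) (s₀ : tsupport a₀ ⊆ U₀)
    (s₁ : tsupport a₁ ⊆ U₁) (hne : ∀ x, a₀ x ≠ 0 ∨ a₁ x ≠ 0)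
    {o : M} (γ : Path o o) (hγ : ∀ t, a₁ (γ t) = 0)
    {c : ℂ} (hwind : ∀ t : unitInterval,
      Φ₀ (γ t) = c * Complex.exp ((2 * Real.pi * (t : ℝ) : ℝ) * Complex.I)) :
    ¬ γ.Homotopic (Path.refl o) := by
  set ρ : M → ℂ × ℂ × ℂ := fun x => (Φ₀ x * ((a₀ x ^ 2 : ℝ) : ℂ), Φ₁ x * ((a₁ x ^ 2 : ℝ) : ℂ),
    s x * Φ₀ x * ((a₀ x * a₁ x : ℝ) : ℂ))
  have hsq2 : ∀ a : M → ℝ, tsupport (fun x => a x ^ 2) ⊆ tsupport a := fun a =>
    closure_mono fun x hx => by simp_all
  have hρ : Continuous ρ :=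
    (continuous_mul_of_tsupport hU₀ h₀ (ha₀.pow 2) ((hsq2 a₀).trans s₀)).prodMk
      ((continuous_mul_of_tsupport hU₁ h₁ (ha₁.pow 2) ((hsq2 a₁).trans s₁)).prodMk
        (continuous_mul_of_tsupport (hU₀.inter hU₁)
          (hs.mul (h₀.mono inter_subset_left)) (ha₀.mul ha₁)
          (subset_inter (((tsupport_mul_subset_left)).trans s₀)
            (((tsupport_mul_subset_right)).trans s₁))))
  have hmem : ∀ x, ρ x ∈ base := by
    intro x
    have m₀ : a₀ x ≠ 0 → x ∈ U₀ := fun h => s₀ (subset_tsupport _ h)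
    have m₁ : a₁ x ≠ 0 → x ∈ U₁ := fun h => s₁ (subset_tsupport _ h)
    obtain ⟨w₀, e₀⟩ := IsAlgClosed.exists_pow_nat_eq (Φ₀ x) two_pos
    obtain ⟨w₁, e₁⟩ := IsAlgClosed.exists_pow_nat_eq (Φ₁ x) two_pos
    refine ⟨?_, fun h => ?_⟩
    · by_cases h : a₀ x = 0
      · exact ⟨(0, w₁ * a₁ x), by simp [sqMap, ρ, h, mul_pow, e₁]⟩
      · refine ⟨(w₀ * a₀ x, s x * w₀ * a₁ x), Prod.ext ?_ (Prod.ext ?_ ?_)⟩
        · simp [sqMap, ρ, mul_pow, e₀]
        · by_cases h1 : a₁ x = 0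
          · simp [sqMap, ρ, h1]
          · simp [sqMap, ρ, mul_pow, e₀, hsq x ⟨m₀ h, m₁ h1⟩]
        · simp only [sqMap, ρ]
          push_cast
          linear_combination (s x * (a₀ x : ℂ) * (a₁ x : ℂ)) * e₀
    · simp only [mem_singleton_iff, ρ, Prod.ext_iff, Prod.fst_zero, Prod.snd_zero, mul_eq_zero] at h
      rcases hne x with h' | h'
      · exact (h.1.elim (n₀ x (m₀ h')) (by simp [h']))
      · exact (h.2.1.elim (n₁ x (m₁ h')) (by simp [h']))
  let R : C(M, base) := ⟨fun x => ⟨ρ x, hmem x⟩, hρ.subtype_mk _⟩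
  obtain ⟨w, hw⟩ := IsAlgClosed.exists_pow_nat_eq c two_pos
  set Γ : unitInterval → ℂ × ℂ := fun t =>
    (w * Complex.exp ((Real.pi * (t : ℝ) : ℝ) * Complex.I) * (a₀ (γ t) : ℂ), 0)
  have hΓ : ∀ t, sqMap (Γ t) = ρ (γ t) := by
    intro t
    simp only [sqMap, Γ, ρ, hγ t, hwind t]
    simp only [mul_pow, hw, ← Complex.exp_nat_mul, mul_zero, zero_pow two_ne_zero,
      Complex.ofReal_zero]
    refine Prod.ext ?_ rfl
    push_cast
    ring_nf
  have hΓm : ∀ t, Γ t ∈ sqMap ⁻¹' base := fun t => by rw [mem_preimage, hΓ]; exact hmem _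
  let L : C(unitInterval, total) :=
    ⟨fun t => ⟨Γ t, hΓm t⟩, (by fun_prop : Continuous Γ).subtype_mk hΓm⟩
  intro hhom
  obtain ⟨H⟩ := hhom
  have hH : ((R.comp γ.toContinuousMap)).HomotopicRel (R.comp (Path.refl o).toContinuousMap)
      {0, 1} := ⟨H.compContinuousMap R⟩
  have cov := isCoveringMap_proj
  have hL : proj ∘ L = R.comp γ.toContinuousMap := funext fun t => Subtype.ext (hΓ t)
  have p0 : R.comp γ.toContinuousMap 0 = proj (L 0) := (congrFun hL 0).symm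
  have p1 : R.comp (Path.refl o).toContinuousMap 0 = proj (L 0) := by
    refine Eq.trans ?_ p0
    simp
  have key := cov.liftPath_apply_one_eq_of_homotopicRel hH (L 0) p0 p1
  have i0 : L = cov.liftPath (R.comp γ.toContinuousMap) (L 0) p0 :=
    (cov.eq_liftPath_iff' p0).2 ⟨hL, rfl⟩
  have i1 : ContinuousMap.const unitInterval (L 0) =
      cov.liftPath (R.comp (Path.refl o).toContinuousMap) (L 0) p1 := by
    refine (cov.eq_liftPath_iff' p1).2 ⟨funext fun t => ?_, rfl⟩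
    refine Eq.trans p1.symm ?_
    simp
  rw [← i0, ← i1] at key
  have h2 : Γ 1 = Γ 0 := congrArg Subtype.val key
  have hg : γ 1 = γ 0 := γ.target.trans γ.source.symm
  simp only [Γ, Prod.mk.injEq, hg, Set.Icc.coe_one, Set.Icc.coe_zero, mul_one, mul_zero,
    Complex.ofReal_zero, zero_mul, Complex.exp_zero, Complex.exp_pi_mul_I] at h2
  have hz : w * (a₀ (γ 0) : ℂ) = 0 := by linear_combination (-1 / 2 : ℂ) * h2.1
  rcases mul_eq_zero.1 hz with h | h
  · have hw0 : c = 0 := by rw [← hw, h, zero_pow two_ne_zero]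
    have h' : a₀ (γ 0) ≠ 0 := (hne _).resolve_right fun h => h (hγ 0)
    exact n₀ _ (s₀ (subset_tsupport _ h')) (by rw [hwind]; simp [hw0])
  · exact (hne (γ 0)).elim (fun h' => h' (by exact_mod_cast h)) fun h' => h' (hγ 0)

/-- The same, in the fundamental group. -/
theorem class_ne_one {U₀ U₁ : Set M} (hU₀ : IsOpen U₀) (hU₁ : IsOpen U₁)
    {Φ₀ Φ₁ s : M → ℂ} (h₀ : ContinuousOn Φ₀ U₀) (h₁ : ContinuousOn Φ₁ U₁)
    (hs : ContinuousOn s (U₀ ∩ U₁)) (n₀ : ∀ x ∈ U₀, Φ₀ x ≠ 0) (n₁ : ∀ x ∈ U₁, Φ₁ x ≠ 0)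
    (hsq : ∀ x ∈ U₀ ∩ U₁, Φ₁ x = s x ^ 2 * Φ₀ x)
    {a₀ a₁ : M → ℝ} (ha₀ : Continuous a₀) (ha₁ : Continuous a₁) (s₀ : tsupport a₀ ⊆ U₀)
    (s₁ : tsupport a₁ ⊆ U₁) (hne : ∀ x, a₀ x ≠ 0 ∨ a₁ x ≠ 0)
    {o : M} (γ : Path o o) (hγ : ∀ t, a₁ (γ t) = 0)
    {c : ℂ} (hwind : ∀ t : unitInterval,
      Φ₀ (γ t) = c * Complex.exp ((2 * Real.pi * (t : ℝ) : ℝ) * Complex.I)) :
    FundamentalGroup.fromPath (Path.Homotopic.Quotient.mk γ) ≠ (1 : FundamentalGroup M o) := by
  intro h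
  refine loop_not_nullhomotopic hU₀ hU₁ h₀ h₁ hs n₀ n₁ hsq ha₀ ha₁ s₀ s₁ hne γ hγ hwind
    (Path.Homotopic.Quotient.eq.1 ?_)
  rw [Path.Homotopic.Quotient.mk_refl]
  exact h

end

end Vale.Agent.P255.Cover
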